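import Mathlib

namespace Vale.Agent.Lib.P060

open SimpleGraph

/-- `G` has a `K_t` minor: there are `t` pairwise disjoint vertex sets, each inducing a connected
(in particular nonempty) subgraph, with an edge of `G` between any two of them. -/
def HasCompleteMinor {V : Type*} (G : SimpleGraph V) (t : ℕ) : Prop :=
  ∃ B : Fin t → Set V,
    (∀ i, (G.induce (B i)).Connected) ∧
    (∀ i j, i ≠ j → Disjoint (B i) (B j)) ∧
    (∀ i j, i ≠ j → ∃ x ∈ B i, ∃ y ∈ B j, G.Adj x y)

lemma hasCompleteMinor_of_index {V ι : Type*} [Fintype ι] (G : SimpleGraph V) (B : ι → Set V)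
    (h1 : ∀ i, (G.induce (B i)).Connected) (h2 : ∀ i j, i ≠ j → Disjoint (B i) (B j))
    (h3 : ∀ i j, i ≠ j → ∃ x ∈ B i, ∃ y ∈ B j, G.Adj x y) :
    HasCompleteMinor G (Fintype.card ι) := by
  let e := (Fintype.equivFin ι).symm
  exact ⟨fun i => B (e i), fun i => h1 _, fun i j hij => h2 _ _ (by simpa using hij),
    fun i j hij => h3 _ _ (by simpa using hij)⟩

end Vale.Agent.Lib.P060
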