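import Vale.Agent.Lib.P060.Defs

namespace Vale.Agent.Lib.P060

open SimpleGraph Finset

section Pairing

variable {V ι : Type*} [Fintype V] [Fintype ι]

open Classical in
/-- counting lemma: an injective family meets a set of size at most `c` at most `c` times. -/
lemma sum_indicator_le (g : ι × Bool → V) (hg : Function.Injective g) (P : V → Prop) (c : ℕ)
    (hc : (univ.filter P).card ≤ c) :
    ∑ j : ι, ((if P (g (j, false)) then 1 else 0) + (if P (g (j, true)) then 1 else 0)) ≤ c := by
  have h1 : ∑ j : ι, ((if P (g (j, false)) then 1 else 0) + (if P (g (j, true)) then 1 else 0))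
      = ∑ p : ι × Bool, (if P (g p) then 1 else 0) := by
    rw [Fintype.sum_prod_type]
    refine Finset.sum_congr rfl fun j _ => ?_
    rw [Fintype.sum_bool, add_comm]
  rw [h1, ← Finset.card_filter]
  refine le_trans ?_ hc
  refine Finset.card_le_card_of_injOn g ?_ (hg.injOn)
  intro p hp
  simpa using hp

open Classical in
/-- Re-pairing lemma: if every vertex is in conflict with at most `c` vertices and there are at
least `c + 1` pairs, the paired vertices can be re-paired without conflicting pairs. -/
lemma exists_good_pairing (bad : V → V → Prop) (hsymm : ∀ x y, bad x y → bad y x) (c : ℕ)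
    (hc : ∀ v, (univ.filter (bad v)).card ≤ c) (hι : c + 1 ≤ Fintype.card ι)
    (f : ι × Bool → V) (hf : Function.Injective f) :
    ∃ σ : Equiv.Perm (ι × Bool), ∀ i, ¬ bad (f (σ (i, false))) (f (σ (i, true))) := by
  -- induct on the number of bad pairs
  suffices H : ∀ n : ℕ, ∀ σ : Equiv.Perm (ι × Bool),
      (univ.filter fun i => bad (f (σ (i, false))) (f (σ (i, true)))).card = n →
      ∃ σ : Equiv.Perm (ι × Bool), ∀ i, ¬ bad (f (σ (i, false))) (f (σ (i, true))) from
    H _ (Equiv.refl _) rfl
  intro n
  induction n using Nat.strong_induction_on with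
  | _ n ih =>
    intro σ hσ
    by_cases hall : ∀ i, ¬ bad (f (σ (i, false))) (f (σ (i, true)))
    · exact ⟨σ, hall⟩
    push Not at hall
    obtain ⟨i, hi⟩ := hall
    set g : ι × Bool → V := fun p => f (σ p) with hgdef
    have hg : Function.Injective g := hf.comp σ.injective
    set a := g (i, false) with ha
    set b := g (i, true) with hb
    have hab : bad a b := hi
    have hba : bad b a := hsymm _ _ hab
    -- weights
    let w : ι → ℕ := fun j =>
      ((if bad a (g (j, false)) then 1 else 0) + (if bad a (g (j, true)) then 1 else 0)) +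
      ((if bad b (g (j, false)) then 1 else 0) + (if bad b (g (j, true)) then 1 else 0))
    have hw : ∑ j, w j ≤ c + c := by
      simp only [w, Finset.sum_add_distrib]
      have h1 := sum_indicator_le g hg (bad a) c (hc a)
      have h2 := sum_indicator_le g hg (bad b) c (hc b)
      simp only [Finset.sum_add_distrib] at h1 h2
      omega
    obtain ⟨j, hj⟩ : ∃ j, w j ≤ 1 := by
      by_contra hcon
      push Not at hcon
      have : ∑ _j : ι, 2 ≤ ∑ j, w j := Finset.sum_le_sum fun j _ => hcon j
      simp at this
      omega
    have hji : j ≠ i := by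
      rintro rfl
      have h1 : (if bad a (g (j, true)) then 1 else 0) = 1 := if_pos hab
      have h2 : (if bad b (g (j, false)) then 1 else 0) = 1 := if_pos hba
      simp only [w] at hj
      omega
    -- choose the swap
    have hswap : ∃ q : Bool, ¬ bad a (g (j, q)) ∧ ¬ bad b (g (j, !q)) := by
      by_contra hcon
      push Not at hcon
      have h1 := hcon false
      have h2 := hcon true
      simp only [Bool.not_false, Bool.not_true] at h1 h2
      simp only [w] at hj
      by_cases c1 : bad a (g (j, false)) <;> by_cases c2 : bad a (g (j, true)) <;>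
        by_cases c3 : bad b (g (j, false)) <;> by_cases c4 : bad b (g (j, true)) <;>
        simp_all
    obtain ⟨q, hq1, hq2⟩ := hswap
    let τ : Equiv.Perm (ι × Bool) := Equiv.swap (i, true) (j, q)
    let σ' : Equiv.Perm (ι × Bool) := τ.trans σ
    have hσ' : ∀ p, f (σ' p) = g (τ p) := fun p => rfl
    have hlt : (univ.filter fun l => bad (f (σ' (l, false))) (f (σ' (l, true)))).card < n := by
      rw [← hσ]
      apply Finset.card_lt_card
      rw [Finset.ssubset_iff_of_subset]
      · refine ⟨i, by simpa using hi, ?_⟩
        simp only [Finset.mem_filter, Finset.mem_univ, true_and, hσ']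
        have e1 : τ (i, false) = (i, false) := by
          apply Equiv.swap_apply_of_ne_of_ne
          · simp
          · intro h; exact hji (Prod.ext_iff.1 h).1.symm
        have e2 : τ (i, true) = (j, q) := Equiv.swap_apply_left _ _
        rw [e1, e2]
        exact hq1
      · intro l hl
        simp only [Finset.mem_filter, Finset.mem_univ, true_and, hσ'] at hl ⊢
        by_cases hli : l = i
        · subst hli; exact hi
        by_cases hlj : l = j
        · subst hlj
          exfalso
          cases q with
          | false =>
            have e1 : τ (l, false) = (i, true) := Equiv.swap_apply_right _ _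
            have e2 : τ (l, true) = (l, true) := by
              apply Equiv.swap_apply_of_ne_of_ne
              · intro h; exact hli (Prod.ext_iff.1 h).1
              · simp
            rw [e1, e2] at hl
            exact hq2 hl
          | true =>
            have e1 : τ (l, true) = (i, true) := Equiv.swap_apply_right _ _
            have e2 : τ (l, false) = (l, false) := by
              apply Equiv.swap_apply_of_ne_of_ne
              · intro h; exact hli (Prod.ext_iff.1 h).1
              · simp
            rw [e1, e2] at hl
            exact hq2 (hsymm _ _ hl)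
        · have e1 : ∀ r, τ (l, r) = (l, r) := by
            intro r
            apply Equiv.swap_apply_of_ne_of_ne
            · intro h; exact hli (Prod.ext_iff.1 h).1
            · intro h; exact hlj (Prod.ext_iff.1 h).1
          rw [e1, e1] at hl
          exact hl
    exact ih _ hlt σ' rfl

end Pairing

section Main

variable {V : Type*}

/-- conflict relation: distinct vertices at distance at most two in the complement of `G`. -/
def Conflict (G : SimpleGraph V) (v w : V) : Prop :=
  v ≠ w ∧ (¬ G.Adj v w ∨ ∃ x, x ≠ v ∧ x ≠ w ∧ ¬ G.Adj v x ∧ ¬ G.Adj x w)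

lemma conflict_symm (G : SimpleGraph V) (v w : V) (h : Conflict G v w) : Conflict G w v := by
  obtain ⟨h1, h2⟩ := h
  refine ⟨h1.symm, ?_⟩
  rcases h2 with h2 | ⟨x, hx1, hx2, hx3, hx4⟩
  · exact Or.inl fun h => h2 h.symm
  · exact Or.inr ⟨x, hx2, hx1, fun h => hx4 h.symm, fun h => hx3 h.symm⟩

open Classical in
lemma card_conflict_le [Fintype V] (G : SimpleGraph V) (d : ℕ)
    (hdeg : ∀ v : V, (univ.filter fun w => w ≠ v ∧ ¬ G.Adj v w).card ≤ d) (v : V) :
    (univ.filter (Conflict G v)).card ≤ d ^ 2 := by
  set N : V → Finset V := fun v => univ.filter fun w => w ≠ v ∧ ¬ G.Adj v w with hN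
  have hsub : univ.filter (Conflict G v) ⊆ N v ∪ (N v).biUnion fun x => (N x).erase v := by
    intro w hw
    simp only [Finset.mem_filter, Finset.mem_univ, true_and] at hw
    obtain ⟨h1, h2⟩ := hw
    rcases h2 with h2 | ⟨x, hx1, hx2, hx3, hx4⟩
    · apply Finset.mem_union_left
      simp [hN, h1.symm, h2]
    · apply Finset.mem_union_right
      simp only [Finset.mem_biUnion]
      refine ⟨x, by simp [hN, hx1, hx3], ?_⟩
      simp [hN, h1.symm, hx2.symm, hx4]
  have h1 : ((N v).biUnion fun x => (N x).erase v).card ≤ (N v).card * (d - 1) := by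
    apply Finset.card_biUnion_le_card_mul
    intro x hx
    have hv : v ∈ N x := by
      simp only [hN, Finset.mem_filter, Finset.mem_univ, true_and] at hx ⊢
      exact ⟨hx.1.symm, fun h => hx.2 h.symm⟩
    rw [Finset.card_erase_of_mem hv]
    have := hdeg x
    exact Nat.sub_le_sub_right this 1
  calc (univ.filter (Conflict G v)).card
      ≤ (N v ∪ (N v).biUnion fun x => (N x).erase v).card := Finset.card_le_card hsub
    _ ≤ (N v).card + ((N v).biUnion fun x => (N x).erase v).card := Finset.card_union_le _ _
    _ ≤ d + d * (d - 1) := by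
        have := hdeg v
        exact Nat.add_le_add this (le_trans h1 (Nat.mul_le_mul_right _ this))
    _ = d ^ 2 := by
        cases d with
        | zero => rfl
        | succ k => simp; ring

lemma adj_of_not_conflict (G : SimpleGraph V) {a b : V} (hab : a ≠ b) (h : ¬ Conflict G a b) :
    G.Adj a b := by
  by_contra hcon
  exact h ⟨hab, Or.inl hcon⟩

lemma dominates_of_not_conflict (G : SimpleGraph V) {a b x : V} (hab : a ≠ b)
    (h : ¬ Conflict G a b) (hxa : x ≠ a) (hxb : x ≠ b) : G.Adj a x ∨ G.Adj b x := by
  by_contra hcon
  push Not at hcon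
  exact h ⟨hab, Or.inr ⟨x, hxa, hxb, hcon.1, fun h => hcon.2 h.symm⟩⟩

open Classical in
/-- The core construction for a maximal matching `f` of the complement. -/
lemma core [Fintype V] (G : SimpleGraph V) (d : ℕ)
    (hdeg : ∀ v : V, (univ.filter fun w => w ≠ v ∧ ¬ G.Adj v w).card ≤ d)
    {ι : Type} [Fintype ι] (hι : d ^ 2 + 1 ≤ Fintype.card ι)
    (f : ι × Bool → V) (hf : Function.Injective f)
    (hnon : ∀ i, ¬ G.Adj (f (i, false)) (f (i, true)))
    (hmax : ∀ u u', u ∉ Set.range f → u' ∉ Set.range f → u ≠ u' → G.Adj u u') :
    ∃ t : ℕ, G.Colorable t ∧ HasCompleteMinor G t := by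
  refine ⟨Fintype.card (ι ⊕ {u : V // u ∉ Set.range f}), ?_, ?_⟩
  · -- the colouring
    let c : V → ι ⊕ {u : V // u ∉ Set.range f} := fun v =>
      if h : v ∈ Set.range f then Sum.inl (Classical.choose h).1 else Sum.inr ⟨v, h⟩
    have hc1 : ∀ p, c (f p) = Sum.inl p.1 := by
      intro p
      have h : f p ∈ Set.range f := ⟨p, rfl⟩
      simp only [c, dif_pos h]
      have := hf (Classical.choose_spec h)
      rw [this]
    have hc2 : ∀ v (h : v ∉ Set.range f), c v = Sum.inr ⟨v, h⟩ := by
      intro v h
      simp only [c, dif_neg h]
    refine (Coloring.mk c ?_).colorable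
    intro v w hvw heq
    by_cases hv : v ∈ Set.range f
    · obtain ⟨⟨i, r⟩, rfl⟩ := hv
      by_cases hw : w ∈ Set.range f
      · obtain ⟨⟨j, s⟩, rfl⟩ := hw
        rw [hc1, hc1] at heq
        have hij : i = j := Sum.inl_injective heq
        subst hij
        cases r <;> cases s
        · exact G.loopless.irrefl _ hvw
        · exact hnon i hvw
        · exact hnon i hvw.symm
        · exact G.loopless.irrefl _ hvw
      · rw [hc1, hc2 w hw] at heq
        exact Sum.inl_ne_inr heq
    · by_cases hw : w ∈ Set.range f
      · obtain ⟨⟨j, s⟩, rfl⟩ := hw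
        rw [hc1, hc2 v hv] at heq
        exact Sum.inr_ne_inl heq
      · rw [hc2 v hv, hc2 w hw] at heq
        have : v = w := by simpa using heq
        subst this
        exact G.loopless.irrefl _ hvw
  · -- the minor
    obtain ⟨σ, hσ⟩ := exists_good_pairing (Conflict G) (conflict_symm G) (d ^ 2)
      (card_conflict_le G d hdeg) hι f hf
    set g : ι × Bool → V := fun p => f (σ p) with hgdef
    have hg : Function.Injective g := hf.comp σ.injective
    have hgr : ∀ p, g p ∈ Set.range f := fun p => ⟨σ p, rfl⟩
    have hne : ∀ i, g (i, false) ≠ g (i, true) := fun i h => by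
      have := hg h
      simp at this
    let B : ι ⊕ {u : V // u ∉ Set.range f} → Set V := fun s =>
      match s with
      | Sum.inl i => {g (i, false), g (i, true)}
      | Sum.inr u => {u.1}
    apply hasCompleteMinor_of_index G B
    · rintro (i | u)
      · exact induce_pair_connected_of_adj (adj_of_not_conflict G (hne i) (hσ i))
      · simp only [B]
        rw [induce_singleton_eq_top]
        exact connected_top
    · rintro (i | u) (j | u') hij
      · have hij' : i ≠ j := fun h => hij (by rw [h])
        simp only [B]
        rw [Set.disjoint_left]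
        intro x hx hx'
        simp only [Set.mem_insert_iff, Set.mem_singleton_iff] at hx hx'
        rcases hx with rfl | rfl <;> rcases hx' with h | h <;>
          exact hij' (Prod.ext_iff.1 (hg h)).1
      · simp only [B]
        rw [Set.disjoint_left]
        intro x hx hx'
        simp only [Set.mem_insert_iff, Set.mem_singleton_iff] at hx hx'
        rcases hx with rfl | rfl
        · exact u'.2 (hx' ▸ hgr _)
        · exact u'.2 (hx' ▸ hgr _)
      · simp only [B]
        rw [Set.disjoint_left]
        intro x hx hx'
        simp only [Set.mem_insert_iff, Set.mem_singleton_iff] at hx hx'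
        rcases hx' with rfl | rfl
        · exact u.2 (hx ▸ hgr _)
        · exact u.2 (hx ▸ hgr _)
      · have : u.1 ≠ u'.1 := fun h => hij (by rw [Subtype.ext h])
        simp only [B]
        simpa using this
    · rintro (i | u) (j | u') hij
      · have hij' : i ≠ j := fun h => hij (by rw [h])
        have h1 : g (j, false) ≠ g (i, false) := fun h => hij' (Prod.ext_iff.1 (hg h)).1.symm
        have h2 : g (j, false) ≠ g (i, true) := fun h => hij' (Prod.ext_iff.1 (hg h)).1.symm
        rcases dominates_of_not_conflict G (hne i) (hσ i) h1 h2 with h | h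
        · exact ⟨_, by simp [B], g (j, false), by simp [B], h⟩
        · exact ⟨_, by simp [B], g (j, false), by simp [B], h⟩
      · have h1 : u'.1 ≠ g (i, false) := fun h => u'.2 (h ▸ hgr _)
        have h2 : u'.1 ≠ g (i, true) := fun h => u'.2 (h ▸ hgr _)
        rcases dominates_of_not_conflict G (hne i) (hσ i) h1 h2 with h | h
        · exact ⟨_, by simp [B], u'.1, by simp [B], h⟩
        · exact ⟨_, by simp [B], u'.1, by simp [B], h⟩
      · have h1 : u.1 ≠ g (j, false) := fun h => u.2 (h ▸ hgr _)
        have h2 : u.1 ≠ g (j, true) := fun h => u.2 (h ▸ hgr _)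
        rcases dominates_of_not_conflict G (hne j) (hσ j) h1 h2 with h | h
        · exact ⟨u.1, by simp [B], _, by simp [B], h.symm⟩
        · exact ⟨u.1, by simp [B], _, by simp [B], h.symm⟩
      · have : u.1 ≠ u'.1 := fun h => hij (by rw [Subtype.ext h])
        exact ⟨u.1, by simp [B], u'.1, by simp [B], hmax _ _ u.2 u'.2 this⟩

open Classical in
/-- Extending a matching of the complement to a maximal one. -/
lemma exists_maximal [Fintype V] (G : SimpleGraph V) :
    ∀ n : ℕ, ∀ (ι : Type) [Fintype ι],
    ∀ f : ι × Bool → V, Function.Injective f →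
    (∀ i, ¬ G.Adj (f (i, false)) (f (i, true))) →
    Fintype.card V - Fintype.card ι = n →
    ∃ (κ : Type) (_ : Fintype κ) (g : κ × Bool → V), Fintype.card ι ≤ Fintype.card κ ∧
      Function.Injective g ∧ (∀ i, ¬ G.Adj (g (i, false)) (g (i, true))) ∧
      (∀ u u', u ∉ Set.range g → u' ∉ Set.range g → u ≠ u' → G.Adj u u') := by
  intro n
  induction n using Nat.strong_induction_on with
  | _ n ih =>
    intro ι _ f hf hnon hn
    by_cases hmax : ∀ u u', u ∉ Set.range f → u' ∉ Set.range f → u ≠ u' → G.Adj u u'
    · exact ⟨ι, inferInstance, f, le_rfl, hf, hnon, hmax⟩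
    push Not at hmax
    obtain ⟨u, u', hu, hu', huu', hnadj⟩ := hmax
    let f' : Option ι × Bool → V := fun p =>
      match p with
      | (none, false) => u
      | (none, true) => u'
      | (some i, r) => f (i, r)
    have hfu : ∀ p, f p ≠ u := fun p h => hu ⟨p, h⟩
    have hfu' : ∀ p, f p ≠ u' := fun p h => hu' ⟨p, h⟩
    have hf' : Function.Injective f' := by
      rintro ⟨_ | i, _ | _⟩ ⟨_ | j, _ | _⟩ h <;> simp only [f'] at h
      · rfl
      · exact absurd h huu'
      · exact absurd h.symm (hfu _)
      · exact absurd h.symm (hfu _)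
      · exact absurd h.symm huu'
      · rfl
      · exact absurd h.symm (hfu' _)
      · exact absurd h.symm (hfu' _)
      · exact absurd h (hfu _)
      · exact absurd h (hfu' _)
      · have h' := hf h; rw [Prod.mk.injEq] at h'; rw [h'.1]
      · have h' := hf h; rw [Prod.mk.injEq] at h'; exact absurd h'.2 (by simp)
      · exact absurd h (hfu _)
      · exact absurd h (hfu' _)
      · have h' := hf h; rw [Prod.mk.injEq] at h'; exact absurd h'.2 (by simp)
      · have h' := hf h; rw [Prod.mk.injEq] at h'; rw [h'.1]
    have hcard : 2 * Fintype.card (Option ι) ≤ Fintype.card V := by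
      have := Fintype.card_le_of_injective f' hf'
      simpa [Fintype.card_prod, mul_comm] using this
    have hc : Fintype.card (Option ι) = Fintype.card ι + 1 := Fintype.card_option
    obtain ⟨κ, hκ, g, h1, h2, h3, h4⟩ :=
      ih (Fintype.card V - Fintype.card (Option ι)) (by omega) (Option ι) f' hf' (by
        rintro (_ | i)
        · exact hnadj
        · exact hnon i) rfl
    exact ⟨κ, hκ, g, by omega, h2, h3, h4⟩

end Main

end Vale.Agent.Lib.P060
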